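import Vale.Agent.P139.H66.ReFlux
import Vale.Agent.P139.KU.Flux
import Vale.Agent.P139.KU.Ladder

/-!
# The ratio `q a c ρ = ρ J (a+1) c ρ / J a c ρ` and its ladders

* `J_ne_zero` : `J a c ρ ≠ 0` if `b = a + c + 1` is real and `(b-1)/2 ≤ Re a`;
* `re_q_ge` : `(b-1)/2 ≤ Re q` under the same hypothesis; `im_q_le`: `Im q ≤ ρ/2` if `b/2 < Re a`;
* `phi_step` : `q a c = a (q' - iρ)/(q' - iρ - c)`, `q' = q (a+1) (c-1)`;
* `psi_step` : `q (a+1) (c+1)` in terms of `q a c` (angular degree `l → l + 2`).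
-/

noncomputable section

open MeasureTheory Set Filter Topology Complex ComplexConjugate

namespace Vale.Agent.P139.H66

open Vale.Agent.P139.KU

/-- `-ρ (log J)'`. -/
def q (a c : ℂ) (ρ : ℝ) : ℂ := ρ * J (a + 1) c ρ / J a c ρ

lemma rho_re_pos {ρ : ℝ} (hρ : 0 < ρ) : 0 < ((ρ : ℝ) : ℂ).re := by simpa using hρ

lemma J_succ_of_zero {a : ℂ} (c : ℂ) (ha : 0 < a.re) {ρ : ℝ} (hρ : 0 < ρ)
    (h0 : J a c ρ = 0) (h1 : J (a + 1) c ρ = 0) (k : ℕ) :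
    J (a + k) c ρ = 0 ∧ J (a + k + 1) c ρ = 0 := by
  induction k with
  | zero => simpa using ⟨h0, h1⟩
  | succ k ih =>
    have hk : 0 < (a + (k : ℂ)).re := by
      simp only [Complex.add_re, Complex.natCast_re]; positivity
    have h := J_ode c hk (rho_re_pos hρ)
    rw [ih.1, ih.2] at h
    have hρ' : (ρ : ℂ) ≠ 0 := by exact_mod_cast hρ.ne'
    have h2 : J (a + k + 2) c ρ = 0 := by
      have : (ρ : ℂ) * J (a + k + 2) c ρ = 0 := by linear_combination h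
      exact (mul_eq_zero.mp this).resolve_left hρ'
    constructor
    · push_cast; rw [← add_assoc]; exact ih.2
    · push_cast; rw [show a + ((k : ℂ) + 1) + 1 = a + k + 2 by ring]; exact h2

/-- `J` and its derivative have no common zero (`b` real). -/
theorem J_pair_ne_zero {a c : ℂ} {b : ℝ} (hb : a + c + 1 = (b : ℂ)) (ha : 0 < a.re)
    {ρ : ℝ} (hρ : 0 < ρ) (h0 : J a c ρ = 0) (h1 : J (a + 1) c ρ = 0) : False := by
  obtain ⟨k, hk⟩ := exists_nat_gt (b - 2 * a.re)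
  have h := (J_succ_of_zero c ha hρ h0 h1 k).1
  refine J_ne_zero_of_flux (a := a + k) (c := c) (b := b + k) ?_ ?_ ?_ hρ h
  · push_cast; rw [← hb]; ring
  · simp only [Complex.add_re, Complex.natCast_re]; positivity
  · simp only [Complex.add_re, Complex.natCast_re]; linarith

/-- Non-vanishing of `J` in the half plane `Re a ≥ (b-1)/2`. -/
theorem J_ne_zero {a c : ℂ} {b : ℝ} (hb : a + c + 1 = (b : ℂ)) (ha : 0 < a.re)
    (hab : (b - 1) / 2 ≤ a.re) {ρ : ℝ} (hρ : 0 < ρ) : J a c ρ ≠ 0 := fun h =>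
  J_pair_ne_zero hb ha hρ h (J_succ_eq_zero hb ha hab hρ h)

/-- Lemma RE for the ratio. -/
theorem re_q_ge {a c : ℂ} {b : ℝ} (hb : a + c + 1 = (b : ℂ)) (ha : 0 < a.re)
    (hab : (b - 1) / 2 ≤ a.re) {ρ : ℝ} (hρ : 0 < ρ) : (b - 1) / 2 ≤ (q a c ρ).re := by
  have hne := J_ne_zero hb ha hab hρ
  have hN : 0 < Complex.normSq (J a c ρ) := Complex.normSq_pos.mpr hne
  have h := re_flux hb ha hab hρ
  have e : (q a c ρ).re = (ρ * J (a + 1) c ρ * conj (J a c ρ)).re / Complex.normSq (J a c ρ) := by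
    unfold q
    rw [Complex.div_re, mul_re (_ * _) (conj _), conj_re, conj_im]
    ring
  rw [e, le_div_iff₀ hN]
  exact h

theorem im_q_le {a c : ℂ} {b : ℝ} (hb : a + c + 1 = (b : ℂ)) (ha : 0 < a.re)
    (hab : b / 2 < a.re) {ρ : ℝ} (hρ : 0 < ρ) : (q a c ρ).im ≤ ρ / 2 := by
  have h := im_ratio_lt hb ha hab hρ
  have e : (q a c ρ).im = ρ * (J (a + 1) c ρ / J a c ρ).im := by
    unfold q
    rw [mul_div_assoc, mul_im, ofReal_re, ofReal_im]; ring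
  rw [e]
  nlinarith

lemma q_eq {a c : ℂ} {ρ : ℝ} (h : J a c ρ ≠ 0) : ρ * J (a + 1) c ρ = q a c ρ * J a c ρ := by
  unfold q; field_simp

/-- Numerator form of one `Φ` step: `a J(a,c) = (q' - iρ - c) * i * J(a+1,c-1)` and
`ρ J(a+1,c) = (q' - iρ) * i * J(a+1,c-1)`. -/
theorem phi_pair {a c : ℂ} (ha : 0 < a.re) {ρ : ℝ} (hρ : 0 < ρ) (h : J (a + 1) (c - 1) ρ ≠ 0) :
    a * J a c ρ = I * (q (a + 1) (c - 1) ρ - I * ρ - c) * J (a + 1) (c - 1) ρ ∧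
    ρ * J (a + 1) c ρ = I * (q (a + 1) (c - 1) ρ - I * ρ) * J (a + 1) (c - 1) ρ := by
  have ha1 : 0 < (a + 1).re := by simp; linarith
  have h1 := J_rec_a c ha (rho_re_pos hρ)
  have h2 := J_rec_c c ha1 (rho_re_pos hρ)
  have h3 := q_eq h
  have hI : I * I = -1 := Complex.I_mul_I
  have e2 : ρ * J (a + 1) c ρ = I * (q (a + 1) (c - 1) ρ - I * ρ) * J (a + 1) (c - 1) ρ := by
    linear_combination (ρ : ℂ) * h2 + I * h3 + (ρ : ℂ) * J (a + 1) (c - 1) ρ * hI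
  refine ⟨?_, e2⟩
  linear_combination h1 + e2

/-- `Φ` step. -/
theorem phi_step {a c : ℂ} (ha : 0 < a.re) {ρ : ℝ} (hρ : 0 < ρ) (h : J (a + 1) (c - 1) ρ ≠ 0)
    (hd : q (a + 1) (c - 1) ρ - I * ρ - c ≠ 0) :
    J a c ρ ≠ 0 ∧
      q a c ρ = a * (q (a + 1) (c - 1) ρ - I * ρ) / (q (a + 1) (c - 1) ρ - I * ρ - c) := by
  obtain ⟨h1, h2⟩ := phi_pair ha hρ h
  have ha0 : a ≠ 0 := by intro h0; rw [h0] at ha; simp at ha
  have hJ : J a c ρ ≠ 0 := by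
    intro h0
    rw [h0, mul_zero] at h1
    exact (mul_ne_zero (mul_ne_zero I_ne_zero hd) h) h1.symm
  refine ⟨hJ, ?_⟩
  unfold q at *
  rw [h2, div_eq_div_iff hJ hd]
  linear_combination (-(ρ * J (a + 1 + 1) (c - 1) ρ / J (a + 1) (c - 1) ρ - I * ρ)) * h1

/-- Conversely `J a c ρ ≠ 0` gives a non-zero denominator. -/
theorem phi_den_ne {a c : ℂ} (ha : 0 < a.re) {ρ : ℝ} (hρ : 0 < ρ) (h : J (a + 1) (c - 1) ρ ≠ 0)
    (hJ : J a c ρ ≠ 0) : q (a + 1) (c - 1) ρ - I * ρ - c ≠ 0 := by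
  intro h0
  have h1 := (phi_pair ha hρ h).1
  rw [h0] at h1
  have ha0 : a ≠ 0 := by intro h0; rw [h0] at ha; simp at ha
  exact (mul_ne_zero ha0 hJ) (by rw [h1]; ring)

/-- Numerator form of the `Ψ` step (`l → l + 2`), `b = a + c + 1`. -/
theorem psi_pair {a c : ℂ} (ha : 0 < a.re) {ρ : ℝ} (hρ : 0 < ρ) (h : J a c ρ ≠ 0) :
    ρ ^ 2 * J (a + 1) (c + 1) ρ = I * ((a + c + 1) * q a c ρ - I * a * ρ) * J a c ρ ∧
    ρ ^ 2 * (ρ * J (a + 2) (c + 1) ρ) =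
      I * ((a + c + 2) * (a + c + 1) * q a c ρ - I * (a + c + 2) * a * ρ + I * (c + 1) * ρ * q a c ρ)
        * J a c ρ := by
  have hz := rho_re_pos hρ
  have ha1 : 0 < (a + 1).re := by simp; linarith
  have h1 := ladder_snd c ha hz
  have h2 := J_ode c ha hz
  have h3 := J_rec_a (c + 1) ha1 hz
  have h4 := q_eq h
  rw [show a + 1 + 1 = a + 2 by ring, add_sub_cancel_right] at h3
  have hI : I * I = -1 := Complex.I_mul_I
  have e1 : ρ ^ 2 * J (a + 1) (c + 1) ρ = I * ((a + c + 1) * q a c ρ - I * a * ρ) * J a c ρ := by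
    linear_combination (ρ : ℂ) * h1 + I * (a + c + 1) * h4 + a * ρ * J a c ρ * hI
  refine ⟨e1, ?_⟩
  linear_combination (-(ρ : ℂ) ^ 2) * h3 + (a + 1) * e1 + I * (c + 1) * ρ * h2 +
    I * (c + 1) * (a + c + 1 + I * ρ) * h4

/-- `Ψ` step. -/
theorem psi_step {a c : ℂ} (ha : 0 < a.re) {ρ : ℝ} (hρ : 0 < ρ) (h : J a c ρ ≠ 0)
    (hd : (a + c + 1) * q a c ρ - I * a * ρ ≠ 0) :
    J (a + 1) (c + 1) ρ ≠ 0 ∧ q (a + 1) (c + 1) ρ =
      ((a + c + 2) * (a + c + 1) * q a c ρ - I * (a + c + 2) * a * ρ + I * (c + 1) * ρ * q a c ρ) /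
        ((a + c + 1) * q a c ρ - I * a * ρ) := by
  obtain ⟨h1, h2⟩ := psi_pair ha hρ h
  have hρ' : (ρ : ℂ) ≠ 0 := by exact_mod_cast hρ.ne'
  have hJ : J (a + 1) (c + 1) ρ ≠ 0 := by
    intro h0
    rw [h0, mul_zero] at h1
    exact (mul_ne_zero (mul_ne_zero I_ne_zero hd) h) h1.symm
  refine ⟨hJ, ?_⟩
  have e : q (a + 1) (c + 1) ρ = ρ * J (a + 2) (c + 1) ρ / J (a + 1) (c + 1) ρ := by
    unfold q; rw [show a + 1 + 1 = a + 2 by ring]
  rw [e, div_eq_div_iff hJ hd]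
  have hc : (ρ : ℂ) ^ 2 ≠ 0 := pow_ne_zero 2 hρ'
  apply mul_left_cancel₀ hc
  linear_combination ((a + c + 1) * q a c ρ - I * a * ρ) * h2 -
    ((a + c + 2) * (a + c + 1) * q a c ρ - I * (a + c + 2) * a * ρ + I * (c + 1) * ρ * q a c ρ) * h1

end Vale.Agent.P139.H66
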