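import Vale.Agent.P139.H66.Phi
import Vale.Agent.P139.KU.Evans

/-!
# The Evans function in terms of the ratio `q`

`Ev d l w R lam = -(2/R) F0 F0s (q(lam) + conj (q (conj lam)))` for `Re (lam + l/2) > 0`.
-/

noncomputable section

open MeasureTheory Set Filter Topology Complex ComplexConjugate

namespace Vale.Agent.P139.H66

open Vale.Agent.P139.KU

/-- `q` at spectral parameter `lam`, angular degree `l`. -/
def qE (d l : ℕ) (w R : ℝ) (lam : ℂ) : ℂ :=
  q (aE l w lam) (bE d l - aE l w lam - 1) (R ^ 2 / 4)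

/-- `J` at spectral parameter `lam`, angular degree `l`. -/
def JE (d l : ℕ) (w R : ℝ) (lam : ℂ) : ℂ :=
  J (aE l w lam) (bE d l - aE l w lam - 1) ((R ^ 2 / 4 : ℝ) : ℂ)

lemma F0_eq_JE {d l : ℕ} {w R : ℝ} {lam : ℂ} (h : 0 < lam.re + l / 2) (hR : 0 < R) :
    F0 d l w lam R = JE d l w R lam / Gamma (aE l w lam) := by
  unfold F0 KU.G JE
  exact S_eq_of_pos _ (by rwa [aE_re]) (rho_pos hR)

lemma F0'_eq_qE {d l : ℕ} {w R : ℝ} {lam : ℂ} (h : 0 < lam.re + l / 2) (hR : 0 < R)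
    (hJ : JE d l w R lam ≠ 0) :
    F0' d l w lam R = -(2 / R) * qE d l w R lam * F0 d l w lam R := by
  have ha : 0 < (aE l w lam).re := by rwa [aE_re]
  have ha0 : aE l w lam ≠ 0 := by intro h0; rw [h0] at ha; simp at ha
  have ha1 : 0 < (aE l w lam + 1).re := by simp; linarith
  have hG : Gamma (aE l w lam) ≠ 0 := Complex.Gamma_ne_zero_of_re_pos ha
  have hR' : (R : ℂ) ≠ 0 := by exact_mod_cast hR.ne'
  have e : F0' d l w lam R =
      -(R / 2) * J (aE l w lam + 1) (bE d l - aE l w lam - 1) ((R ^ 2 / 4 : ℝ) : ℂ) /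
        Gamma (aE l w lam) := by
    unfold F0' dG KU.G
    rw [S_eq_of_pos _ ha1 (rho_pos hR), Complex.Gamma_add_one _ ha0,
      show bE d l + 1 - (aE l w lam + 1) - 1 = bE d l - aE l w lam - 1 by ring]
    field_simp
  rw [e, F0_eq_JE h hR]
  unfold qE q
  unfold JE at *
  field_simp
  push_cast
  ring

lemma F0_ne_zero {d l : ℕ} {w R : ℝ} {lam : ℂ} (h : 0 < lam.re + l / 2) (hR : 0 < R)
    (hJ : JE d l w R lam ≠ 0) : F0 d l w lam R ≠ 0 := by
  rw [F0_eq_JE h hR]
  exact div_ne_zero hJ (Complex.Gamma_ne_zero_of_re_pos (by rwa [aE_re]))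

/-- The Evans function in terms of `q`. -/
theorem Ev_eq_qE {d l : ℕ} {w R : ℝ} {lam : ℂ} (h : 0 < lam.re + l / 2) (hR : 0 < R)
    (hJ : JE d l w R lam ≠ 0) (hJs : JE d l w R (conj lam) ≠ 0) :
    Ev d l w R lam = -(2 / R) * (qE d l w R lam + conj (qE d l w R (conj lam))) *
      (F0 d l w lam R * F0s d l w lam R) := by
  have hs : 0 < (conj lam).re + l / 2 := by simpa using h
  have e : F0s' d l w lam R = -(2 / R) * conj (qE d l w R (conj lam)) * F0s d l w lam R := by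
    unfold F0s' F0s
    rw [F0'_eq_qE hs hR hJs]
    simp only [map_mul, map_neg, map_div₀, map_ofNat, Complex.conj_ofReal]
  unfold Ev
  rw [e, F0'_eq_qE h hR hJ]
  ring

/-- No zero of the Evans function where `Re q > 0` at `lam` and at `conj lam`. -/
theorem Ev_ne_zero {d l : ℕ} {w R : ℝ} {lam : ℂ} (h : 0 < lam.re + l / 2) (hR : 0 < R)
    (hJ : JE d l w R lam ≠ 0) (hJs : JE d l w R (conj lam) ≠ 0)
    (h1 : 0 < (qE d l w R lam).re) (h2 : 0 < (qE d l w R (conj lam)).re) :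
    Ev d l w R lam ≠ 0 := by
  have hs : 0 < (conj lam).re + l / 2 := by simpa using h
  have hR' : (R : ℂ) ≠ 0 := by exact_mod_cast hR.ne'
  rw [Ev_eq_qE h hR hJ hJs]
  refine mul_ne_zero (mul_ne_zero (neg_ne_zero.mpr (div_ne_zero two_ne_zero hR')) ?_)
    (mul_ne_zero (F0_ne_zero h hR hJ) ?_)
  · intro h0
    have := congrArg Complex.re h0
    simp only [Complex.add_re, Complex.conj_re, Complex.zero_re] at this
    linarith
  · unfold F0s
    rw [Ne, map_eq_zero]
    exact F0_ne_zero hs hR hJs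

end Vale.Agent.P139.H66
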