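import Vale.Agent.P139.H66.Bridge

/-!
# The sequence `qN n = q (a+n) (c-n)` and its backward recursion

`a = aE l w lam`, `b = d/2 + l`, `c = b - a - 1`, `ρ = R²/4`.
For `Re (a + n) ≥ (b-1)/2`: `Re (qN n) ≥ (b-1)/2`, and `qN n = Φ (qN (n+1))`.
-/

noncomputable section

open MeasureTheory Set Filter Topology Complex ComplexConjugate

namespace Vale.Agent.P139.H66

open Vale.Agent.P139.KU

/-- the ratio after `n` shifts `a → a+1, c → c-1` -/
def qN (d l : ℕ) (w R : ℝ) (lam : ℂ) (n : ℕ) : ℂ :=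
  q (aE l w lam + n) (bE d l - aE l w lam - 1 - n) (R ^ 2 / 4)

/-- the real number `b = d/2 + l` -/
def bR (d l : ℕ) : ℝ := (d : ℝ) / 2 + l

lemma bR_cast (d l : ℕ) : ((bR d l : ℝ) : ℂ) = bE d l := by
  unfold bR bE; push_cast; ring

lemma qN_zero (d l : ℕ) (w R : ℝ) (lam : ℂ) : qN d l w R lam 0 = qE d l w R lam := by
  unfold qN qE; simp

lemma par_sum (d l : ℕ) (w : ℝ) (lam : ℂ) (n : ℕ) :
    (aE l w lam + n) + (bE d l - aE l w lam - 1 - n) + 1 = ((bR d l : ℝ) : ℂ) := by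
  rw [bR_cast]; ring

lemma par_re (l : ℕ) (w : ℝ) (lam : ℂ) (n : ℕ) :
    (aE l w lam + n).re = lam.re + l / 2 + n := by
  rw [Complex.add_re, aE_re]; simp

lemma rho66_pos {R : ℝ} (hR : 0 < R) : 0 < R ^ 2 / 4 := by positivity

/-- `J (a+n) (c-n)` is non-zero in the half plane. -/
theorem JN_ne_zero {d l : ℕ} {w R : ℝ} {lam : ℂ} {n : ℕ} (hR : 0 < R)
    (h0 : 0 < lam.re + l / 2 + n) (h1 : (bR d l - 1) / 2 ≤ lam.re + l / 2 + n) :
    J (aE l w lam + n) (bE d l - aE l w lam - 1 - n) ((R ^ 2 / 4 : ℝ) : ℂ) ≠ 0 :=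
  J_ne_zero (par_sum d l w lam n) (by rwa [par_re]) (by rwa [par_re]) (rho66_pos hR)

/-- The a-priori half plane. -/
theorem qN_re_ge {d l : ℕ} {w R : ℝ} {lam : ℂ} {n : ℕ} (hR : 0 < R)
    (h0 : 0 < lam.re + l / 2 + n) (h1 : (bR d l - 1) / 2 ≤ lam.re + l / 2 + n) :
    (bR d l - 1) / 2 ≤ (qN d l w R lam n).re :=
  re_q_ge (par_sum d l w lam n) (by rwa [par_re]) (by rwa [par_re]) (rho66_pos hR)

/-- The backward recursion with non-zero denominator. -/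
theorem qN_rec {d l : ℕ} {w R : ℝ} {lam : ℂ} {n : ℕ} (hR : 0 < R)
    (h0 : 0 < lam.re + l / 2 + n) (h1 : (bR d l - 1) / 2 ≤ lam.re + l / 2 + n) :
    qN d l w R lam (n + 1) - I * ((R ^ 2 / 4 : ℝ) : ℂ) - (bE d l - aE l w lam - 1 - n) ≠ 0 ∧
    qN d l w R lam n = (aE l w lam + n) * (qN d l w R lam (n + 1) - I * ((R ^ 2 / 4 : ℝ) : ℂ)) /
      (qN d l w R lam (n + 1) - I * ((R ^ 2 / 4 : ℝ) : ℂ) - (bE d l - aE l w lam - 1 - n)) := by
  have e1 : aE l w lam + ((n + 1 : ℕ) : ℂ) = aE l w lam + n + 1 := by push_cast; ring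
  have e2 : bE d l - aE l w lam - 1 - ((n + 1 : ℕ) : ℂ) = bE d l - aE l w lam - 1 - n - 1 := by
    push_cast; ring
  have ha : 0 < (aE l w lam + n).re := by rwa [par_re]
  have hJ1 := JN_ne_zero (d := d) (l := l) (w := w) (lam := lam) (n := n + 1) hR
    (by push_cast; linarith) (by push_cast; linarith)
  rw [e1, e2] at hJ1
  have hJ := JN_ne_zero (d := d) (l := l) (w := w) (lam := lam) (n := n) hR h0 h1
  have hd := phi_den_ne ha (rho66_pos hR) hJ1 hJ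
  have hs := phi_step ha (rho66_pos hR) hJ1 hd
  unfold qN
  rw [e1, e2]
  exact ⟨hd, hs.2⟩

/-- The same in the form `A (1 + c / (q' - iρ - c))`. -/
theorem qN_rec' {d l : ℕ} {w R : ℝ} {lam : ℂ} {n : ℕ} (hR : 0 < R)
    (h0 : 0 < lam.re + l / 2 + n) (h1 : (bR d l - 1) / 2 ≤ lam.re + l / 2 + n) :
    qN d l w R lam n = (aE l w lam + n) * (1 + (bE d l - aE l w lam - 1 - n) /
      (qN d l w R lam (n + 1) - I * ((R ^ 2 / 4 : ℝ) : ℂ) - (bE d l - aE l w lam - 1 - n))) := by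
  obtain ⟨hd, h⟩ := qN_rec (d := d) (l := l) (w := w) (lam := lam) (n := n) hR h0 h1
  rw [h]
  field_simp
  ring

/-- One step down as long as the denominator does not vanish. -/
theorem qN_step {d l : ℕ} {w R : ℝ} {lam : ℂ} {n : ℕ} (hR : 0 < R)
    (h0 : 0 < lam.re + l / 2 + n)
    (hJ : J (aE l w lam + ((n + 1 : ℕ) : ℂ)) (bE d l - aE l w lam - 1 - ((n + 1 : ℕ) : ℂ))
      ((R ^ 2 / 4 : ℝ) : ℂ) ≠ 0)
    (hd : qN d l w R lam (n + 1) - I * ((R ^ 2 / 4 : ℝ) : ℂ) - (bE d l - aE l w lam - 1 - n) ≠ 0) :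
    J (aE l w lam + n) (bE d l - aE l w lam - 1 - n) ((R ^ 2 / 4 : ℝ) : ℂ) ≠ 0 ∧
    qN d l w R lam n = (aE l w lam + n) * (qN d l w R lam (n + 1) - I * ((R ^ 2 / 4 : ℝ) : ℂ)) /
      (qN d l w R lam (n + 1) - I * ((R ^ 2 / 4 : ℝ) : ℂ) - (bE d l - aE l w lam - 1 - n)) := by
  have e1 : aE l w lam + ((n + 1 : ℕ) : ℂ) = aE l w lam + n + 1 := by push_cast; ring
  have e2 : bE d l - aE l w lam - 1 - ((n + 1 : ℕ) : ℂ) = bE d l - aE l w lam - 1 - n - 1 := by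
    push_cast; ring
  have ha : 0 < (aE l w lam + n).re := by rwa [par_re]
  unfold qN at *
  rw [e1, e2] at hJ
  rw [e1, e2] at hd
  rw [e1, e2]
  exact phi_step ha (rho66_pos hR) hJ hd

end Vale.Agent.P139.H66
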