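import Vale.Agent.P139.KU.Rec

/-!
# Lemma RE: the flux along the ray `ζ = ρ + i t`

If `b = a + c + 1` is real and `(b - 1)/2 ≤ Re a`, then
`(b - 1)/2 * |J a c ρ|^2 ≤ Re (ρ * J (a+1) c ρ * conj (J a c ρ))`.
-/

noncomputable section

open MeasureTheory Set Filter Topology Complex ComplexConjugate

namespace Vale.Agent.P139.H66

open Vale.Agent.P139.KU

/-- the point `ρ + i t` -/
def zt (ρ t : ℝ) : ℂ := (ρ : ℂ) + I * (t : ℂ)

@[simp] lemma zt_re (ρ t : ℝ) : (zt ρ t).re = ρ := by simp [zt]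
@[simp] lemma zt_im (ρ t : ℝ) : (zt ρ t).im = t := by simp [zt]
@[simp] lemma zt_zero (ρ : ℝ) : zt ρ 0 = (ρ : ℂ) := by simp [zt]

lemma hasDerivAt_zt (ρ t : ℝ) : HasDerivAt (fun t : ℝ => zt ρ t) I t := by
  have h : HasDerivAt (fun t : ℝ => (ρ : ℂ) + I * (t : ℂ)) I t := by
    simpa using ((hasDerivAt_id t).ofReal_comp.const_mul I).const_add (ρ : ℂ)
  exact h

lemma hasDerivAt_J_ray {a : ℂ} (c : ℂ) (ha : 0 < a.re) {ρ : ℝ} (hρ : 0 < ρ) (t : ℝ) :
    HasDerivAt (fun t : ℝ => J a c (zt ρ t)) (-(J (a + 1) c (zt ρ t)) * I) t := by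
  have h1 := hasDerivAt_J (ζ := zt ρ t) c ha (by simpa using hρ)
  exact h1.comp t (hasDerivAt_zt ρ t)

/-- the bracket of Lemma RE (without the exponential) -/
def Gb (a c : ℂ) (b ρ t : ℝ) : ℝ :=
  -(zt ρ t * J (a + 1) c (zt ρ t) * conj (J a c (zt ρ t))).re +
    (b - 1) / 2 * Complex.normSq (J a c (zt ρ t))

/-- the function of Lemma RE -/
def G (a c : ℂ) (b ρ t : ℝ) : ℝ := Real.exp (-t) * Gb a c b ρ t

lemma normSq_J_le {a : ℂ} (c : ℂ) (ha : 0 < a.re) {ρ : ℝ} (hρ : 0 < ρ) :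
    ∃ C : ℝ, 0 ≤ C ∧ ∀ t : ℝ, ‖J a c (zt ρ t)‖ ≤ C := by
  have key : ∀ t : ℝ, ‖J a c (zt ρ t)‖ ≤ Real.exp (|c.im| * (Real.pi / 2)) *
      ∫ s in Ioi (0 : ℝ), Real.exp (-(ρ * s)) * s ^ (a.re - 1) * (1 + s) ^ |c.re| := by
    intro t
    have h := norm_J_le (a := a) (ζ := zt ρ t) c ha (by simpa using hρ)
    rwa [zt_re] at h
  exact ⟨_, (norm_nonneg _).trans (key 0), key⟩

theorem tendsto_G (a c : ℂ) (b : ℝ) (ha : 0 < a.re) {ρ : ℝ} (hρ : 0 < ρ) :
    Tendsto (G a c b ρ) atTop (𝓝 0) := by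
  obtain ⟨C0, hC0, h0⟩ := normSq_J_le c ha hρ
  obtain ⟨C1, hC1, h1⟩ := normSq_J_le (a := a + 1) c (by simp; linarith) hρ
  have hlim : Tendsto (fun t : ℝ => Real.exp (-t) * ((ρ + |t|) * C1 * C0 + |(b - 1) / 2| * C0 ^ 2))
      atTop (𝓝 0) := by
    have e1 : Tendsto (fun t : ℝ => t ^ 1 * Real.exp (-t)) atTop (𝓝 0) :=
      Real.tendsto_pow_mul_exp_neg_atTop_nhds_zero 1
    have e0 : Tendsto (fun t : ℝ => t ^ 0 * Real.exp (-t)) atTop (𝓝 0) :=
      Real.tendsto_pow_mul_exp_neg_atTop_nhds_zero 0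
    have e2 := (e1.const_mul (C1 * C0)).add (e0.const_mul (ρ * C1 * C0 + |(b - 1) / 2| * C0 ^ 2))
    simp only [mul_zero, add_zero] at e2
    refine e2.congr' ?_
    filter_upwards [eventually_ge_atTop 0] with t ht
    rw [abs_of_nonneg ht]
    ring
  refine squeeze_zero_norm' ?_ hlim
  filter_upwards [eventually_ge_atTop 0] with t ht
  unfold G Gb
  rw [norm_mul, Real.norm_of_nonneg (Real.exp_pos _).le]
  refine mul_le_mul_of_nonneg_left ?_ (Real.exp_pos _).le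
  have hz : ‖zt ρ t‖ ≤ ρ + |t| := by
    unfold zt
    refine (norm_add_le _ _).trans ?_
    simp [abs_of_pos hρ]
  have n1 : |(zt ρ t * J (a + 1) c (zt ρ t) * conj (J a c (zt ρ t))).re| ≤ (ρ + |t|) * C1 * C0 := by
    refine (Complex.abs_re_le_norm _).trans ?_
    rw [norm_mul, norm_mul, RCLike.norm_conj]
    have := h0 t
    have := h1 t
    gcongr
  have n2 : |(b - 1) / 2 * Complex.normSq (J a c (zt ρ t))| ≤ |(b - 1) / 2| * C0 ^ 2 := by
    rw [abs_mul, Complex.normSq_eq_norm_sq, abs_of_nonneg (sq_nonneg ‖J a c (zt ρ t)‖)]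
    have := h0 t
    gcongr
  rw [Real.norm_eq_abs]
  calc |-(zt ρ t * J (a + 1) c (zt ρ t) * conj (J a c (zt ρ t))).re +
        (b - 1) / 2 * Complex.normSq (J a c (zt ρ t))|
      ≤ |-(zt ρ t * J (a + 1) c (zt ρ t) * conj (J a c (zt ρ t))).re| +
        |(b - 1) / 2 * Complex.normSq (J a c (zt ρ t))| := abs_add_le _ _
    _ ≤ _ := by rw [abs_neg]; exact add_le_add n1 n2

lemma hasDerivAt_re {f : ℝ → ℂ} {f' : ℂ} {x : ℝ} (h : HasDerivAt f f' x) :
    HasDerivAt (fun t => (f t).re) f'.re x :=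
  (Complex.reCLM.hasFDerivAt (x := f x)).comp_hasDerivAt x h

lemma hasDerivAt_im {f : ℝ → ℂ} {f' : ℂ} {x : ℝ} (h : HasDerivAt f f' x) :
    HasDerivAt (fun t => (f t).im) f'.im x :=
  (Complex.imCLM.hasFDerivAt (x := f x)).comp_hasDerivAt x h

theorem hasDerivAt_G {a c : ℂ} {b : ℝ} (hb : a + c + 1 = (b : ℂ)) (ha : 0 < a.re) {ρ : ℝ}
    (hρ : 0 < ρ) (t : ℝ) :
    HasDerivAt (G a c b ρ) (Real.exp (-t) * ((a.re - (b - 1) / 2) *
      Complex.normSq (J a c (zt ρ t)) + t * Complex.normSq (J (a + 1) c (zt ρ t)))) t := by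
  have ha1 : 0 < (a + 1).re := by simp; linarith
  have hz : 0 < (zt ρ t).re := by simpa using hρ
  have d0 := hasDerivAt_J_ray c ha hρ t
  have d1 := hasDerivAt_J_ray c ha1 hρ t
  have ode := J_ode (a := a) (ζ := zt ρ t) c ha hz
  rw [hb] at ode
  rw [show a + 1 + 1 = a + 2 by ring] at d1
  have x0 := hasDerivAt_re d0
  have y0 := hasDerivAt_im d0
  have x1 := hasDerivAt_re d1
  have y1 := hasDerivAt_im d1
  have hG : G a c b ρ = fun t => Real.exp (-t) * (-((ρ * (J (a + 1) c (zt ρ t)).re -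
      t * (J (a + 1) c (zt ρ t)).im) * (J a c (zt ρ t)).re +
      (ρ * (J (a + 1) c (zt ρ t)).im + t * (J (a + 1) c (zt ρ t)).re) * (J a c (zt ρ t)).im) +
      (b - 1) / 2 * ((J a c (zt ρ t)).re ^ 2 + (J a c (zt ρ t)).im ^ 2)) := by
    funext s
    simp only [G, Gb, Complex.mul_re, Complex.mul_im, Complex.conj_re, Complex.conj_im, zt_re,
      zt_im, Complex.normSq_apply]
    ring
  rw [hG]
  have de : HasDerivAt (fun t : ℝ => Real.exp (-t)) (-Real.exp (-t)) t := by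
    have h := (hasDerivAt_neg' t).exp
    simpa using h
  have dt := hasDerivAt_id' t
  have main := de.mul ((((((x1.const_mul ρ).sub (dt.mul y1)).mul x0).add
    (((y1.const_mul ρ).add (dt.mul x1)).mul y0)).neg).add
    (((x0.pow 2).add (y0.pow 2)).const_mul ((b - 1) / 2)))
  refine main.congr_deriv ?_
  have r : (zt ρ t * J (a + 2) c (zt ρ t)) = ((b : ℂ) + I * zt ρ t) * J (a + 1) c (zt ρ t) -
      I * a * J a c (zt ρ t) := by
    linear_combination ode
  have rre := congrArg Complex.re r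
  have rim := congrArg Complex.im r
  simp only [Complex.mul_re, Complex.mul_im, Complex.add_re, Complex.add_im, Complex.sub_re,
    Complex.sub_im, Complex.I_re, Complex.I_im, Complex.ofReal_re, Complex.ofReal_im, zt_re,
    zt_im] at rre rim
  simp only [Complex.mul_re, Complex.mul_im, Complex.neg_re, Complex.neg_im, Complex.I_re,
    Complex.I_im, Complex.normSq_apply, Pi.add_apply, Pi.mul_apply, Pi.neg_apply, Pi.sub_apply,
    Pi.pow_apply, Nat.cast_ofNat, Nat.add_one_sub_one, pow_one]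
  set e := Real.exp (-t)
  set p0 := (J a c (zt ρ t)).re
  set q0 := (J a c (zt ρ t)).im
  set p1 := (J (a + 1) c (zt ρ t)).re
  set q1 := (J (a + 1) c (zt ρ t)).im
  set p2 := (J (a + 2) c (zt ρ t)).re
  set q2 := (J (a + 2) c (zt ρ t)).im
  linear_combination (-e * p0) * rim + (e * q0) * rre

theorem monotoneOn_G {a c : ℂ} {b : ℝ} (hb : a + c + 1 = (b : ℂ)) (ha : 0 < a.re)
    (hab : (b - 1) / 2 ≤ a.re) {ρ : ℝ} (hρ : 0 < ρ) : MonotoneOn (G a c b ρ) (Ici 0) := by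
  apply monotoneOn_of_deriv_nonneg (convex_Ici 0)
  · exact fun t _ => (hasDerivAt_G hb ha hρ t).continuousAt.continuousWithinAt
  · exact fun t _ => (hasDerivAt_G hb ha hρ t).differentiableAt.differentiableWithinAt
  · intro t ht
    rw [interior_Ici] at ht
    rw [(hasDerivAt_G hb ha hρ t).deriv]
    have ht' : (0 : ℝ) < t := ht
    have := Complex.normSq_nonneg (J a c (zt ρ t))
    have := Complex.normSq_nonneg (J (a + 1) c (zt ρ t))
    have h1 : 0 ≤ a.re - (b - 1) / 2 := by linarith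
    positivity

theorem G_nonpos {a c : ℂ} {b : ℝ} (hb : a + c + 1 = (b : ℂ)) (ha : 0 < a.re)
    (hab : (b - 1) / 2 ≤ a.re) {ρ : ℝ} (hρ : 0 < ρ) {t : ℝ} (ht : 0 ≤ t) : G a c b ρ t ≤ 0 := by
  refine ge_of_tendsto (tendsto_G a c b ha hρ) ?_
  filter_upwards [eventually_ge_atTop t] with s hs
  exact monotoneOn_G hb ha hab hρ (show (0 : ℝ) ≤ t from ht) (show (0 : ℝ) ≤ s by linarith) hs

/-- LEMMA RE. -/
theorem re_flux {a c : ℂ} {b : ℝ} (hb : a + c + 1 = (b : ℂ)) (ha : 0 < a.re)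
    (hab : (b - 1) / 2 ≤ a.re) {ρ : ℝ} (hρ : 0 < ρ) :
    (b - 1) / 2 * Complex.normSq (J a c ρ) ≤ (ρ * J (a + 1) c ρ * conj (J a c ρ)).re := by
  have h := G_nonpos hb ha hab hρ le_rfl
  unfold G Gb at h
  simp only [zt_zero, neg_zero, Real.exp_zero, one_mul] at h
  linarith

/-- If `J` vanishes at a point then so does `J (a+1)`. -/
theorem J_succ_eq_zero {a c : ℂ} {b : ℝ} (hb : a + c + 1 = (b : ℂ)) (ha : 0 < a.re)
    (hab : (b - 1) / 2 ≤ a.re) {ρ : ℝ} (hρ : 0 < ρ) (h0 : J a c ρ = 0) : J (a + 1) c ρ = 0 := by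
  have hG0 : G a c b ρ 0 = 0 := by simp [G, Gb, h0]
  have hz : ∀ t : ℝ, 0 ≤ t → G a c b ρ t = 0 := fun t ht =>
    le_antisymm (G_nonpos hb ha hab hρ ht)
      (hG0 ▸ monotoneOn_G hb ha hab hρ (show (0 : ℝ) ≤ 0 from le_rfl) (show (0 : ℝ) ≤ t from ht) ht)
  have h1 : ∀ t : ℝ, 0 < t → J (a + 1) c (zt ρ t) = 0 := by
    intro t ht
    have hd := (hasDerivAt_G hb ha hρ t)
    have hd0 : HasDerivAt (G a c b ρ) 0 t := by
      refine (hasDerivAt_const t (0 : ℝ)).congr_of_eventuallyEq ?_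
      filter_upwards [lt_mem_nhds ht] with s hs
      exact hz s hs.le
    have he := hd.unique hd0
    have e0 : 0 ≤ (a.re - (b - 1) / 2) * Complex.normSq (J a c (zt ρ t)) :=
      mul_nonneg (by linarith) (Complex.normSq_nonneg _)
    have e1 : 0 ≤ t * Complex.normSq (J (a + 1) c (zt ρ t)) :=
      mul_nonneg ht.le (Complex.normSq_nonneg _)
    have e2 : t * Complex.normSq (J (a + 1) c (zt ρ t)) = 0 := by
      rcases mul_eq_zero.mp he with h | h
      · exact absurd h (Real.exp_pos _).ne'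
      · linarith
    rcases mul_eq_zero.mp e2 with h | h
    · exact absurd h ht.ne'
    · exact Complex.normSq_eq_zero.mp h
  have hc : ContinuousAt (fun t : ℝ => J (a + 1) c (zt ρ t)) 0 :=
    (hasDerivAt_J_ray c (by simp; linarith) hρ 0).continuousAt
  have hlim : Tendsto (fun t : ℝ => J (a + 1) c (zt ρ t)) (𝓝[>] 0) (𝓝 (J (a + 1) c (zt ρ 0))) :=
    hc.tendsto.mono_left nhdsWithin_le_nhds
  have hlim0 : Tendsto (fun t : ℝ => J (a + 1) c (zt ρ t)) (𝓝[>] 0) (𝓝 0) := by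
    refine tendsto_const_nhds.congr' ?_
    filter_upwards [self_mem_nhdsWithin] with t ht
    exact (h1 t ht).symm
  have := tendsto_nhds_unique hlim hlim0
  simpa using this

end Vale.Agent.P139.H66
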